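import Vale.Agent.P011.H900.BrgE2

/-!
The last clause for groups of type `E₆` in the new letters, without topology: no proper subgroup of
finite index.
-/

open Module

namespace Vale.Agent.P011.H742

open Vale.Agent.P011.MPQ Vale.Agent.P011.D4 Vale.Agent.P011.E6 Vale.Agent.P011.E6H
open Vale.Agent.P011.H900

/-- The third clause in the old letters, without topology. -/
def Old3N : Prop :=
  ∀ {k E : Type} [Field k] [NumberField k] [Field E] [NumberField E] [Algebra k E],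
    ∀ (ρ σ : E ≃ₐ[k] E) {kap : kˣ}, IsSextic ρ σ kap → ∀ {a b c : kˣ}, Oct.Division a b c →
    ∀ (lam : Eˣ) (g : Fin 3 → Eˣ), IsForm ρ σ lam g →
    E6H.NoIndex (GHer σ g a b c ⊓ GPh ρ lam a b c)

variable {F : Type} [Field F] [NumberField F]

/-- Outer groups with nontrivial Tits class. -/
theorem e3n_of (H : Old3N) {r s : F → F} {a b c e t : F} {g : Fin 3 → F} (hr : Aut 3 r)
    (hs : Aut 2 s) (hc : ∀ x, r (s x) = s (r x)) (hd : Dvn [r, s] [r, s] a b c) (he : Nnm r e)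
    (hw : Wei r s e t g) :
    H900.NoIndex fun f : Al a b → Al a b => Cub c f ∧ Her c s g f ∧ Ph r e f := by
  have hA : IsA r := hr.isA three_ne_zero
  have hB : IsA s := hs.isA two_ne_zero
  obtain ⟨k, _, _, _, hfin, hgal, hfix, haut, hcl⟩ := exists_base [r, s] (by simpa using ⟨hA, hB⟩)
  obtain ⟨ha0, hb0, hc0⟩ := hd.ne (by simpa using ⟨hA, hB⟩)
  have he0 : e ≠ 0 := fun h => he.2 0 (by rw [h, zero_mul, zero_mul])
  have hr' := hd.1 r (by simp)
  have hs' := hd.1 s (by simp)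
  obtain ⟨a, rfl⟩ := unit_of hfix (by simpa using ⟨hr'.1, hs'.1⟩) ha0
  obtain ⟨b, rfl⟩ := unit_of hfix (by simpa using ⟨hr'.2.1, hs'.2.1⟩) hb0
  obtain ⟨c, rfl⟩ := unit_of hfix (by simpa using ⟨hr'.2.2, hs'.2.2⟩) hc0
  obtain ⟨e, rfl⟩ : ∃ u : Fˣ, (u : F) = e := ⟨Units.mk0 e he0, rfl⟩
  obtain ⟨ρ, rfl⟩ := haut r (by simp)
  obtain ⟨σ, rfl⟩ := haut s (by simp)
  obtain ⟨w1, w2, w3, w4, w5, w6⟩ := hw
  have hg0 : ∀ i, g i ≠ 0 := by
    have h2 : g 2 ≠ 0 := by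
      intro h
      rw [h, map_zero, mul_zero] at w6
      exact w2 w6
    have ht : t ≠ 0 := by
      rintro rfl
      rw [zero_mul] at w5
      exact h2 w5
    have h1 : g 1 ≠ 0 := by
      rw [w4]
      exact mul_ne_zero ht ((map_ne_zero ρ).2 w2)
    intro i
    fin_cases i
    · exact w2
    · exact h1
    · exact h2
  obtain ⟨g, rfl⟩ : ∃ g' : Fin 3 → Fˣ, (fun i => (g' i : F)) = g :=
    ⟨fun i => Units.mk0 (g i) (hg0 i), rfl⟩
  have h6 : finrank k F = 6 := rank6 hcl hr.exists_ne hr.three hs.exists_ne hs.two hc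
  obtain ⟨kap, hk⟩ : ∃ kap : kˣ, ∃ x : F, x ^ 2 = algebraMap k F kap ∧ ρ x = x ∧ σ x = -x := by
    obtain ⟨y, hy⟩ := hs.exists_ne
    have hu : y - σ y ≠ 0 := fun h => hy (sub_eq_zero.1 h).symm
    have hσu : σ (y - σ y) = -(y - σ y) := by
      rw [map_sub, hs.two]
      ring
    have hx0 : (y - σ y) * ρ (y - σ y) * ρ (ρ (y - σ y)) ≠ 0 :=
      mul_ne_zero (mul_ne_zero hu ((map_ne_zero ρ).2 hu))
        ((map_ne_zero ρ).2 ((map_ne_zero ρ).2 hu))
    have hρx : ρ ((y - σ y) * ρ (y - σ y) * ρ (ρ (y - σ y))) =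
        (y - σ y) * ρ (y - σ y) * ρ (ρ (y - σ y)) := by
      rw [map_mul, map_mul, hr.three]
      ring
    have hσx : σ ((y - σ y) * ρ (y - σ y) * ρ (ρ (y - σ y))) =
        -((y - σ y) * ρ (y - σ y) * ρ (ρ (y - σ y))) := by
      rw [map_mul, map_mul, ← hc, ← hc, ← hc, hσu, map_neg, map_neg]
      ring
    generalize (y - σ y) * ρ (y - σ y) * ρ (ρ (y - σ y)) = x at hx0 hρx hσx
    obtain ⟨u, hu⟩ := unit_of hfix (x := x ^ 2) (by
      simp only [List.mem_cons, List.not_mem_nil, or_false, forall_eq_or_imp, forall_eq]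
      exact ⟨by rw [map_pow, hρx], by rw [map_pow, hσx, neg_sq]⟩) (pow_ne_zero 2 hx0)
    exact ⟨u, x, hu.symm, hρx, hσx⟩
  have hS : IsSextic ρ σ kap := ⟨h6, hr.exists_ne, hr.three, hs.two, hc, hk⟩
  have hF : IsForm ρ σ e g := ⟨he.1, he.2, w1, ⟨t, w3, w4, w5, w6⟩⟩
  have h7 := H ρ σ hS (div_of haut hd) e g hF
  exact noIndex_of (aeL a b c) _ _ (her_ph_iff σ ρ g e) h7

end Vale.Agent.P011.H742
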